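import Mathlib

/-!
The divisor bound, and the few representations of a number as a difference of two values of an
integer polynomial.
-/

namespace Vale.Agent.P042

open Finset Filter Polynomial
open scoped Classical

/-- For every `K`, the `K`-th power of the number of divisors is at most linear. -/
lemma exists_divisor_bound (K : ℕ) :
    ∃ C : ℕ, 0 < C ∧ ∀ m : ℕ, m ≠ 0 → m.divisors.card ^ K ≤ C * m := by
  obtain ⟨A, hA⟩ : ∃ A : ℕ, ∀ a : ℕ, (a + 1) ^ K ≤ A * 2 ^ a := by
    have h := tendsto_pow_const_div_const_pow_of_one_lt K (one_lt_two (α := ℝ))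
    obtain ⟨B, hB⟩ := (h.bddAbove_range)
    refine ⟨⌈2 * B⌉₊, fun a => ?_⟩
    have hB' := hB ⟨a + 1, rfl⟩
    simp only [div_le_iff₀ (show (0 : ℝ) < 2 ^ (a + 1) by positivity)] at hB'
    have : ((a + 1 : ℕ) : ℝ) ^ K ≤ (⌈2 * B⌉₊ : ℝ) * 2 ^ a := by
      refine le_trans hB' ?_
      rw [pow_succ, mul_comm ((2 : ℝ) ^ a) 2, ← mul_assoc, mul_comm B 2]
      exact mul_le_mul_of_nonneg_right (Nat.le_ceil _) (by positivity)
    exact_mod_cast this
  have hA1 : 1 ≤ A := by simpa using hA 0
  suffices hkey : ∀ m : ℕ, m ≠ 0 →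
      m.divisors.card ^ K ≤ m * A ^ (m.primeFactors.filter (· < 2 ^ K)).card by
    refine ⟨A ^ 2 ^ K, Nat.pow_pos hA1, fun m hm => ?_⟩
    rw [mul_comm]
    refine (hkey m hm).trans (Nat.mul_le_mul_left _ (Nat.pow_le_pow_right hA1 ?_))
    calc _ ≤ (Finset.range (2 ^ K)).card :=
          card_le_card fun p hp => mem_range.2 (mem_filter.1 hp).2
      _ = _ := card_range _
  intro m
  induction m using Nat.recOnPrimeCoprime with
  | zero => simp
  | prime_pow p a hp =>
    intro _
    rcases Nat.eq_zero_or_pos a with rfl | ha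
    · simp
    rw [Nat.divisors_prime_pow hp, card_map, card_range, Nat.primeFactors_prime_pow ha.ne' hp]
    by_cases hsmall : p < 2 ^ K
    · rw [filter_singleton, if_pos hsmall, card_singleton, pow_one, mul_comm]
      exact (hA a).trans (Nat.mul_le_mul_left _ (Nat.pow_le_pow_left hp.two_le _))
    · rw [filter_singleton, if_neg hsmall, card_empty, pow_zero, mul_one]
      calc (a + 1) ^ K ≤ (2 ^ a) ^ K := Nat.pow_le_pow_left Nat.lt_two_pow_self _
        _ = (2 ^ K) ^ a := by rw [← pow_mul, ← pow_mul, mul_comm]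
        _ ≤ p ^ a := Nat.pow_le_pow_left (not_lt.1 hsmall) _
  | coprime a b ha hb hab iha ihb =>
    intro _
    rw [hab.card_divisors_mul, mul_pow, hab.primeFactors_mul, filter_union,
      card_union_of_disjoint (disjoint_filter_filter hab.disjoint_primeFactors), pow_add]
    refine le_trans (Nat.mul_le_mul (iha (by omega)) (ihb (by omega))) (le_of_eq ?_)
    ring

/-- The absolute values of the nonzero values at positive integers, up to `N`. -/
def Val (h : ℤ[X]) (N v : ℕ) : Prop :=
  1 ≤ v ∧ v ≤ N ∧ ∃ n : ℕ, 1 ≤ n ∧ (h.eval (n : ℤ)).natAbs = v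

variable {h : ℤ[X]}

/-- A polynomial with positive leading coefficient eventually grows like its degree, and is
increasing. -/
lemma exists_threshold (hk : 2 ≤ h.natDegree) (hlc : 0 < h.leadingCoeff) :
    ∃ n0 : ℕ, ∀ n : ℕ, n0 ≤ n →
      ((n : ℤ) ^ h.natDegree ≤ 2 * h.eval (n : ℤ) ∧ h.eval (n : ℤ) < h.eval ((n : ℤ) + 1)) := by
  have hgrow : ∀ g : ℝ[X], ∀ c : ℝ, 0 < c → (g.natDegree = h.natDegree ∧ g.leadingCoeff = c) →
      ∀ᶠ x : ℝ in atTop, c / 2 * x ^ h.natDegree ≤ g.eval x := by
    intro g c hc ⟨hd, hl⟩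
    have he := g.isEquivalent_atTop_lead
    rw [hd, hl] at he
    filter_upwards [he.isLittleO.bound (show (0 : ℝ) < 1 / 2 by norm_num),
      eventually_ge_atTop (0 : ℝ)] with x hx hx0
    simp only [Pi.sub_apply, Real.norm_eq_abs] at hx
    rw [abs_of_nonneg (show 0 ≤ c * x ^ h.natDegree by positivity)] at hx
    linarith [(abs_le.1 hx).1]
  set g : ℝ[X] := h.map (Int.castRingHom ℝ) with hg
  have hgd : g.natDegree = h.natDegree :=
    natDegree_map_eq_of_injective (Int.castRingHom ℝ).injective_int h
  have hgl : g.leadingCoeff = (h.leadingCoeff : ℝ) := by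
    rw [hg, leadingCoeff_map_of_injective (Int.castRingHom ℝ).injective_int]; rfl
  have hev : ∀ z : ℤ, g.eval (z : ℝ) = ((h.eval z : ℤ) : ℝ) := fun z => by
    rw [hg, eval_map]; exact eval₂_at_apply (Int.castRingHom ℝ) z
  have hc : (1 : ℝ) ≤ h.leadingCoeff := by exact_mod_cast hlc
  have h1 := tendsto_natCast_atTop_atTop.eventually (hgrow g _ (by linarith) ⟨hgd, hgl⟩)
  -- the derivative form of monotonicity: the difference polynomial is eventually positive
  set q : ℤ[X] := h.comp (X + C 1) - h with hq
  have hqd : ∀ᶠ n : ℕ in atTop, 0 < q.eval (n : ℤ) := by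
    set r : ℝ[X] := q.map (Int.castRingHom ℝ) with hr
    have hrev : ∀ z : ℤ, r.eval (z : ℝ) = ((q.eval z : ℤ) : ℝ) := fun z => by
      rw [hr, eval_map]; exact eval₂_at_apply (Int.castRingHom ℝ) z
    have hqne : q ≠ 0 := by
      intro h0
      have hper : ∀ j : ℕ, h.eval ((j : ℤ)) = h.eval 0 := by
        intro j
        induction j with
        | zero => simp
        | succ j ih =>
          have := congrArg (eval (j : ℤ)) h0
          simp [q, eval_comp] at this
          push_cast
          linarith
      have hz : h - C (h.eval 0) = 0 := eq_zero_of_infinite_isRoot _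
        (((Set.infinite_range_of_injective (Nat.cast_injective (R := ℤ)))).mono
          (by rintro _ ⟨j, rfl⟩; simp [hper j]))
      have := congrArg natDegree (sub_eq_zero.1 hz)
      rw [natDegree_C] at this
      omega
    have hrne : r ≠ 0 := (Polynomial.map_ne_zero_iff (Int.castRingHom ℝ).injective_int).2 hqne
    rcases lt_or_gt_of_ne (leadingCoeff_ne_zero.2 hrne) with hneg | hpos
    · exfalso
      have hbd : ∀ᶠ x : ℝ in atTop, r.eval x ≤ 0 := by
        have he := r.isEquivalent_atTop_lead
        filter_upwards [he.isLittleO.bound (show (0 : ℝ) < 1 / 2 by norm_num),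
          eventually_ge_atTop (0 : ℝ)] with x hx hx0
        simp only [Pi.sub_apply, Real.norm_eq_abs] at hx
        have hp : r.leadingCoeff * x ^ r.natDegree ≤ 0 :=
          mul_nonpos_of_nonpos_of_nonneg hneg.le (by positivity)
        rw [abs_of_nonpos hp] at hx
        linarith [(abs_le.1 hx).2]
      obtain ⟨a, ha⟩ := eventually_atTop.1 ((tendsto_natCast_atTop_atTop.eventually hbd).and h1)
      have hdec : ∀ j, (h.eval ((a + j : ℕ) : ℤ)) ≤ h.eval (a : ℤ) := by
        intro j
        induction j with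
        | zero => simp
        | succ j ih =>
          have h2 := (ha (a + j) (by omega)).1
          rw [show ((a + j : ℕ) : ℝ) = (((a + j : ℕ) : ℤ) : ℝ) by push_cast; rfl, hrev] at h2
          have h3 : q.eval ((a + j : ℕ) : ℤ) ≤ 0 := by exact_mod_cast h2
          simp only [q, eval_sub, eval_comp, eval_add, eval_X, eval_C] at h3
          rw [show ((a + (j + 1) : ℕ) : ℤ) = ((a + j : ℕ) : ℤ) + 1 by push_cast; ring]
          linarith
      obtain ⟨b, hb⟩ := exists_nat_gt (2 * ((h.eval (a : ℤ) : ℤ) : ℝ))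
      have h2 := (ha (a + (b + 1)) (by omega)).2
      rw [show ((a + (b + 1) : ℕ) : ℝ) = (((a + (b + 1) : ℕ) : ℤ) : ℝ) by push_cast; rfl, hev] at h2
      have h3 : ((h.eval ((a + (b + 1) : ℕ) : ℤ) : ℤ) : ℝ) ≤ ((h.eval (a : ℤ) : ℤ) : ℝ) := by
        exact_mod_cast hdec (b + 1)
      have h4 : ((a + (b + 1) : ℕ) : ℝ) ≤ ((((a + (b + 1) : ℕ) : ℤ)) : ℝ) ^ h.natDegree := by
        push_cast
        exact le_self_pow₀ (by linarith [Nat.cast_nonneg (α := ℝ) a, Nat.cast_nonneg (α := ℝ) b])
          (by omega)
      push_cast at h2 h3 h4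
      have h5 : (1 : ℝ) / 2 * ((a : ℝ) + ((b : ℝ) + 1)) ^ h.natDegree ≤
          (h.leadingCoeff : ℝ) / 2 * ((a : ℝ) + ((b : ℝ) + 1)) ^ h.natDegree :=
        mul_le_mul_of_nonneg_right (by linarith) (by positivity)
      linarith [Nat.cast_nonneg (α := ℝ) a]
    · have he := r.isEquivalent_atTop_lead
      have hpos' : ∀ᶠ x : ℝ in atTop, 0 < r.eval x := by
        filter_upwards [he.isLittleO.bound (show (0 : ℝ) < 1 / 2 by norm_num),
          eventually_gt_atTop (0 : ℝ)] with x hx hx0
        simp only [Pi.sub_apply, Real.norm_eq_abs] at hx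
        have hp : 0 < r.leadingCoeff * x ^ r.natDegree := by positivity
        rw [abs_of_pos hp] at hx
        linarith [(abs_le.1 hx).1]
      filter_upwards [tendsto_natCast_atTop_atTop.eventually hpos'] with n hn
      rw [show ((n : ℕ) : ℝ) = (((n : ℕ) : ℤ) : ℝ) by push_cast; rfl, hrev] at hn
      exact_mod_cast hn
  obtain ⟨n0, hn0⟩ := eventually_atTop.1 (h1.and hqd)
  refine ⟨n0, fun n hn => ⟨?_, ?_⟩⟩
  · have h2 := (hn0 n hn).1
    rw [show ((n : ℕ) : ℝ) = (((n : ℕ) : ℤ) : ℝ) by push_cast; rfl, hev] at h2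
    have h3 : (((n : ℤ) : ℝ)) ^ h.natDegree ≤ 2 * ((h.eval (n : ℤ) : ℤ) : ℝ) := by
      have : (0 : ℝ) ≤ (((n : ℤ) : ℝ)) ^ h.natDegree := by positivity
      nlinarith
    exact_mod_cast h3
  · have := (hn0 n hn).2
    simp only [q, eval_sub, eval_comp, eval_add, eval_X, eval_C] at this
    linarith

/-- A shifted difference of `h` is constant at most `k` times. -/
lemma card_shift_roots (hk : 2 ≤ h.natDegree) {t : ℤ} (ht : t ≠ 0) (p : ℤ) :
    (h.comp (X + C t) - h - C p) ≠ 0 ∧
      (h.comp (X + C t) - h - C p).roots.toFinset.card ≤ h.natDegree := by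
  set q := h.comp (X + C t) - h - C p with hq
  refine ⟨fun h0 => ?_, (Multiset.toFinset_card_le _).trans ((card_roots' q).trans ?_)⟩
  · have hlin : ∀ j : ℕ, h.eval (t * (j : ℤ)) = h.eval 0 + p * j := by
      intro j
      induction j with
      | zero => simp
      | succ j ih =>
        have := congrArg (eval (t * (j : ℤ))) h0
        simp [q, eval_comp] at this
        push_cast
        rw [mul_add, mul_one]
        linarith
    have hz : h.comp (C t * X) - (C (h.eval 0) + C p * X) = 0 := eq_zero_of_infinite_isRoot _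
      (((Set.infinite_range_of_injective (Nat.cast_injective (R := ℤ)))).mono
        (by rintro _ ⟨j, rfl⟩; simp [eval_comp, hlin j]))
    have hd := congrArg natDegree (sub_eq_zero.1 hz)
    rw [natDegree_comp, natDegree_C_mul_X t ht, mul_one] at hd
    have : (C (h.eval 0) + C p * X).natDegree ≤ 1 := by
      rw [add_comm]; exact natDegree_linear_le
    omega
  · refine (natDegree_sub_C (a := p)).le.trans ((natDegree_sub_le _ _).trans (max_le ?_ le_rfl))
    rw [natDegree_comp, natDegree_X_add_C, mul_one]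

/-- The values up to `N`, and the pairs of values at a given distance, are few. -/
theorem exists_value_bounds (hk : 2 ≤ h.natDegree) (hlc : 0 < h.leadingCoeff) :
    ∃ n0 : ℕ, ∀ N : ℕ, (∀ R : ℕ, 2 * N ≤ R ^ h.natDegree →
        ((Finset.range (N + 1)).filter (Val h N)).card ≤ R + 1 + n0) ∧
      ∀ p : ℕ, 1 ≤ p → (((Finset.range (N + 1)).filter (Val h N)).filter
        fun q => Val h N (p + q)).card ≤ h.natDegree * p.divisors.card + 2 * n0 := by
  obtain ⟨n0, hn0⟩ := exists_threshold hk hlc
  refine ⟨n0, fun N => ⟨fun R hR => ?_, fun p hp => ?_⟩⟩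
  · refine (card_le_card (t := ((Finset.range (R + 1 + n0)).image
      fun n : ℕ => (h.eval (n : ℤ)).natAbs)) ?_).trans (card_image_le.trans (card_range _).le)
    intro v hv
    obtain ⟨hvN, -, -, n, -, hv⟩ := mem_filter.1 hv
    rw [mem_range] at hvN
    refine mem_image.2 ⟨n, mem_range.2 ?_, hv⟩
    by_contra hlt
    push Not at hlt
    have h1 := (hn0 n (by omega)).1
    have h2 : ((R + 1) ^ h.natDegree : ℕ) ≤ n ^ h.natDegree := Nat.pow_le_pow_left (by omega) _
    have h3 : R ^ h.natDegree < (R + 1) ^ h.natDegree :=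
      Nat.pow_lt_pow_left (Nat.lt_succ_self R) (by omega)
    have h4 : h.eval (n : ℤ) ≤ ((h.eval (n : ℤ)).natAbs : ℤ) := Int.le_natAbs
    have h5 : ((n ^ h.natDegree : ℕ) : ℤ) = (n : ℤ) ^ h.natDegree := by push_cast; rfl
    omega
  · set J := p.divisors.biUnion fun t : ℕ =>
      (h.comp (X + C (t : ℤ)) - h - C (p : ℤ)).roots.toFinset with hJ
    have hJcard : J.card ≤ h.natDegree * p.divisors.card := by
      refine (card_biUnion_le_card_mul _ _ h.natDegree fun t ht => ?_).trans (mul_comm _ _).le
      exact (card_shift_roots hk (by exact_mod_cast (Nat.pos_of_mem_divisors ht).ne') _).2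
    refine (card_le_card (t := J.image (fun z => (h.eval z).natAbs) ∪
      ((Finset.range n0).image (fun n : ℕ => (h.eval (n : ℤ)).natAbs) ∪
        (Finset.range n0).image (fun n : ℕ => (h.eval (n : ℤ)).natAbs - p))) ?_).trans ?_
    · intro q hq
      obtain ⟨hq1, -, -, l, -, hl⟩ := mem_filter.1 hq
      obtain ⟨-, hqpos, -, j, -, hj⟩ := mem_filter.1 hq1
      simp only [mem_union, mem_image]
      by_cases hjs : j < n0
      · exact Or.inr (Or.inl ⟨j, mem_range.2 hjs, hj⟩)
      by_cases hls : l < n0
      · exact Or.inr (Or.inr ⟨l, mem_range.2 hls, by omega⟩)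
      push Not at hjs hls
      refine Or.inl ⟨(j : ℤ), ?_, hj⟩
      have hpos : ∀ n, n0 ≤ n → ((h.eval (n : ℤ)).natAbs : ℤ) = h.eval (n : ℤ) := by
        intro n hn
        refine Int.natAbs_of_nonneg ?_
        have := (hn0 n hn).1
        have : (0 : ℤ) ≤ (n : ℤ) ^ h.natDegree := by positivity
        linarith
      have hjl : j < l := by
        by_contra hc
        push Not at hc
        have hmono : h.eval (l : ℤ) ≤ h.eval (j : ℤ) := by
          induction j, hc using Nat.le_induction with
          | base => exact le_rfl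
          | succ i hi _ =>
            clear hj hjs
            have : ∀ d : ℕ, h.eval (l : ℤ) ≤ h.eval ((l + d : ℕ) : ℤ) := by
              intro d
              induction d with
              | zero => simp
              | succ d ih =>
                have := (hn0 (l + d) (by omega)).2
                push_cast at this ih ⊢
                rw [← add_assoc]
                linarith
            simpa [Nat.add_sub_cancel' (show l ≤ i + 1 by omega)] using this (i + 1 - l)
        have e1 := hpos l hls
        have e2 := hpos j hjs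
        rw [hl] at e1
        rw [hj] at e2
        omega
      have e1 := hpos l hls
      have e2 := hpos j hjs
      rw [hl] at e1
      rw [hj] at e2
      push_cast at e1 e2
      have heq : h.eval (l : ℤ) - h.eval (j : ℤ) = (p : ℤ) := by linarith
      have hdvd : ((l - j : ℕ) : ℤ) ∣ (p : ℤ) := by
        rw [Nat.cast_sub hjl.le, ← heq]
        exact sub_dvd_eval_sub _ _ h
      refine mem_biUnion.2 ⟨l - j, Nat.mem_divisors.2 ⟨by exact_mod_cast hdvd, by omega⟩, ?_⟩
      rw [Multiset.mem_toFinset, mem_roots (card_shift_roots hk (by omega) _).1]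
      simp only [IsRoot, eval_sub, eval_comp, eval_add, eval_X, eval_C, Nat.cast_sub hjl.le]
      rw [show (j : ℤ) + ((l : ℤ) - j) = l by ring]
      linarith
    · refine (card_union_le _ _).trans ?_
      refine (Nat.add_le_add (card_image_le.trans hJcard) ((card_union_le _ _).trans
        (Nat.add_le_add card_image_le card_image_le))).trans ?_
      rw [card_range]
      omega

end Vale.Agent.P042
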