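import Vale.Agent.P042.TriFree
import Vale.Agent.P042.Values

/-!
The difference graph of a polynomial has few triangles, so it has independent sets a logarithm
larger than the greedy ones.
-/

namespace Vale.Agent.P042

open Finset Filter Polynomial
open scoped Classical

/-- Two numbers at a distance which is a value of `h`. -/
def Adj (h : ℤ[X]) (N a b : ℕ) : Prop := Val h N (Nat.dist a b)

variable {h : ℤ[X]}

lemma adj_symm (N : ℕ) : ∀ a b, Adj h N a b → Adj h N b a := fun a b hab => by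
  unfold Adj at hab ⊢; rwa [Nat.dist_comm]

lemma adj_irrefl (N : ℕ) : ∀ a, ¬ Adj h N a a := fun a ha => by
  have := ha.1; simp at this

lemma card_nbrs_le (N v : ℕ) :
    (nbrs (Adj h N) (Icc 1 N) v).card ≤ 2 * ((Finset.range (N + 1)).filter (Val h N)).card := by
  set D := (Finset.range (N + 1)).filter (Val h N)
  refine (card_le_card (t := D.image (fun p => v + p) ∪ D.image (fun p => v - p)) ?_).trans
    ((card_union_le _ _).trans ((Nat.add_le_add card_image_le card_image_le).trans (by omega)))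
  intro u hu
  obtain ⟨-, hu⟩ := mem_filter.1 hu
  have hd : Nat.dist v u ∈ D := mem_filter.2 ⟨mem_range.2 (by have := hu.2.1; omega), hu⟩
  rw [mem_union, mem_image, mem_image]
  rcases le_total v u with hle | hle
  · exact Or.inl ⟨_, hd, by rw [Nat.dist_eq_sub_of_le hle]; omega⟩
  · exact Or.inr ⟨_, hd, by rw [Nat.dist_eq_sub_of_le_right hle]; omega⟩

/-- The triangles, listed by their least element and their two gaps. -/
noncomputable def tris (h : ℤ[X]) (N : ℕ) : Finset (ℕ × ℕ × ℕ) :=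
  (((Finset.range (N + 1)).filter (Val h N)).biUnion fun p =>
    (Icc 1 N ×ˢ (((Finset.range (N + 1)).filter (Val h N)).filter fun q => Val h N (p + q))).image
      fun a => (a.1, a.1 + p, a.1 + p + a.2)).filter fun t => t.2.2 ≤ N

lemma card_tris_le {N B : ℕ} (hB : ∀ p, 1 ≤ p → p ≤ N →
    (((Finset.range (N + 1)).filter (Val h N)).filter fun q => Val h N (p + q)).card ≤ B) :
    (tris h N).card ≤ ((Finset.range (N + 1)).filter (Val h N)).card * (N * B) := by
  refine (card_filter_le _ _).trans (card_biUnion_le_card_mul _ _ _ fun p hp => ?_)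
  refine card_image_le.trans ?_
  rw [card_product, Nat.card_Icc, Nat.add_sub_cancel]
  obtain ⟨hp, hv⟩ := mem_filter.1 hp
  exact Nat.mul_le_mul_left _ (hB p hv.1 hv.2.1)

lemma mem_tris {N a b c : ℕ} (ha : 1 ≤ a) (hab : a < b) (hbc : b < c) (hc : c ≤ N)
    (h1 : Adj h N a b) (h2 : Adj h N b c) (h3 : Adj h N a c) : (a, b, c) ∈ tris h N := by
  unfold Adj at h1 h2 h3
  rw [Nat.dist_eq_sub_of_le (by omega)] at h1 h2 h3
  have e : c - a = (b - a) + (c - b) := by omega
  refine mem_filter.2 ⟨mem_biUnion.2 ⟨b - a, mem_filter.2 ⟨mem_range.2 (by omega), h1⟩,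
    mem_image.2 ⟨(a, c - b), mem_product.2 ⟨mem_Icc.2 ⟨ha, by omega⟩,
      mem_filter.2 ⟨mem_filter.2 ⟨mem_range.2 (by omega), h2⟩, e ▸ h3⟩⟩, ?_⟩⟩, hc⟩
  simp only [Prod.mk.injEq, true_and]
  exact ⟨by omega, by omega⟩

lemma exists_tri {N x y z : ℕ} (hx : x ∈ Icc 1 N) (hy : y ∈ Icc 1 N) (hz : z ∈ Icc 1 N)
    (h1 : Adj h N x y) (h2 : Adj h N x z) (h3 : Adj h N y z) :
    ∃ t ∈ tris h N, ({t.1, t.2.1, t.2.2} : Finset ℕ) = {x, y, z} := by
  rw [mem_Icc] at hx hy hz
  have hxy : x ≠ y := fun e => adj_irrefl N y (e ▸ h1)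
  have hxz : x ≠ z := fun e => adj_irrefl N z (e ▸ h2)
  have hyz : y ≠ z := fun e => adj_irrefl N z (e ▸ h3)
  have s := adj_symm (h := h) N
  rcases lt_or_gt_of_ne hxy with a | a <;> rcases lt_or_gt_of_ne hxz with b | b <;>
    rcases lt_or_gt_of_ne hyz with c | c <;> try omega
  · exact ⟨_, mem_tris hx.1 a c hz.2 h1 h3 h2, rfl⟩
  · exact ⟨_, mem_tris hx.1 b c hy.2 h2 (s _ _ h3) h1, by ext w; simp only [mem_insert, mem_singleton]; tauto⟩
  · exact ⟨_, mem_tris hz.1 b a hy.2 (s _ _ h2) h1 (s _ _ h3), by ext w; simp only [mem_insert, mem_singleton]; tauto⟩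
  · exact ⟨_, mem_tris hy.1 a b hz.2 (s _ _ h1) h2 h3, by ext w; simp only [mem_insert, mem_singleton]; tauto⟩
  · exact ⟨_, mem_tris hy.1 c b hx.2 h3 (s _ _ h2) (s _ _ h1), by ext w; simp only [mem_insert, mem_singleton]; tauto⟩
  · exact ⟨_, mem_tris hz.1 c a hx.2 (s _ _ h3) (s _ _ h1) (s _ _ h2), by ext w; simp only [mem_insert, mem_singleton]; tauto⟩

lemma tris_spec {N : ℕ} : ∀ t ∈ tris h N, t.1 ∈ Icc 1 N ∧ t.2.1 ∈ Icc 1 N ∧ t.2.2 ∈ Icc 1 N ∧
    t.1 ≠ t.2.1 ∧ t.1 ≠ t.2.2 ∧ t.2.1 ≠ t.2.2 := by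
  intro t ht
  obtain ⟨ht, htN⟩ := mem_filter.1 ht
  obtain ⟨p, hp, ht⟩ := mem_biUnion.1 ht
  obtain ⟨a, ha, rfl⟩ := mem_image.1 ht
  obtain ⟨h1, h2⟩ := mem_product.1 ha
  rw [mem_Icc] at h1
  have := (mem_filter.1 hp).2.1
  have := (mem_filter.1 (mem_filter.1 h2).1).2.1
  simp only at htN
  refine ⟨?_, ?_, ?_, ?_, ?_, ?_⟩ <;> simp only [mem_Icc] <;> omega

/-- **A logarithmic gain over the greedy bound, for every polynomial.** -/
theorem exists_avoiding (hk : 2 ≤ h.natDegree) (hlc : 0 < h.leadingCoeff) :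
    ∃ c : ℝ, 0 < c ∧ ∀ᶠ N : ℕ in atTop, ∃ A ⊆ Icc 1 N,
      (∀ a ∈ A, ∀ b ∈ A, ∀ n : ℕ, 1 ≤ n → (a : ℤ) - b = h.eval (n : ℤ) → a = b) ∧
        c * (N : ℝ) ^ (1 - 1 / (h.natDegree : ℝ)) * Real.log N ≤ A.card := by
  obtain ⟨n0, hn0⟩ := exists_value_bounds hk hlc
  obtain ⟨C, hC0, hC⟩ := exists_divisor_bound (2 * h.natDegree)
  set k := h.natDegree with hkdef
  have hk0 : (0 : ℝ) < k := by exact_mod_cast (by omega : 0 < k)
  refine ⟨1 / (56 * k * 112), by positivity, ?_⟩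
  have hz : Tendsto (fun N : ℕ => (N : ℝ) ^ (1 / (8 * k : ℝ))) atTop atTop :=
    (tendsto_rpow_atTop (by positivity)).comp tendsto_natCast_atTop_atTop
  filter_upwards [hz.eventually_ge_atTop ((k * C + 2 * n0 : ℕ) + 2),
    (Real.tendsto_log_atTop.comp tendsto_natCast_atTop_atTop).eventually_ge_atTop (56 * k : ℝ),
    eventually_ge_atTop 1, hz.eventually_ge_atTop ((n0 : ℝ) + 3)] with N hzC hlog hN hzn
  simp only [Function.comp_apply] at hlog
  push_cast at hzC
  obtain ⟨z, hzdef⟩ : ∃ z : ℝ, z = (N : ℝ) ^ (1 / (8 * k : ℝ)) := ⟨_, rfl⟩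
  rw [← hzdef] at hzC hzn
  have hN0 : (0 : ℝ) < N := by exact_mod_cast hN
  have hz2 : 2 ≤ z := by
    linarith [mul_nonneg hk0.le (Nat.cast_nonneg (α := ℝ) C), Nat.cast_nonneg (α := ℝ) n0]
  have hz0 : 0 < z := by linarith
  have hz8 : z ^ 8 = (N : ℝ) ^ (1 / (k : ℝ)) := by
    rw [hzdef, ← Real.rpow_mul_natCast hN0.le]
    congr 1
    push_cast; field_simp
  have hzk : (z ^ 8) ^ k = N := by
    rw [hz8, ← Real.rpow_mul_natCast hN0.le, one_div, inv_mul_cancel₀ hk0.ne', Real.rpow_one]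
  have hz4 : (z ^ 4) ^ (2 * k) = N := by
    rw [← pow_mul, ← hzk, ← pow_mul]; ring_nf
  set D := (Finset.range (N + 1)).filter (Val h N) with hD
  obtain ⟨hval, hpair⟩ := hn0 N
  have hDcard : (D.card : ℝ) ≤ 3 * z ^ 8 := by
    have hR : 2 * N ≤ ⌈2 * z ^ 8⌉₊ ^ k := by
      have h1 : 2 * (N : ℝ) ≤ (2 * z ^ 8) ^ k := by
        rw [mul_pow, hzk]
        exact mul_le_mul_of_nonneg_right (le_self_pow₀ one_le_two (by omega)) hN0.le
      have := h1.trans (pow_le_pow_left₀ (by positivity) (Nat.le_ceil _) k)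
      exact_mod_cast this
    have h1 : (D.card : ℝ) ≤ (⌈2 * z ^ 8⌉₊ : ℝ) + 1 + n0 := by exact_mod_cast hval _ hR
    have h2 := Nat.ceil_lt_add_one (show 0 ≤ 2 * z ^ 8 by positivity)
    have h3 : z ≤ z ^ 8 := le_self_pow₀ (by linarith) (by norm_num)
    linarith
  have hpairs : ∀ p, 1 ≤ p → p ≤ N → ((D.filter fun q => Val h N (p + q)).card : ℝ) ≤
      (k * C + 2 * n0 : ℝ) * z ^ 4 := by
    intro p hp hpN
    have h1 : ((D.filter fun q => Val h N (p + q)).card : ℝ) ≤ k * p.divisors.card + 2 * n0 := by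
      exact_mod_cast hpair p hp
    have h2 : (p.divisors.card : ℝ) ≤ C * z ^ 4 := by
      refine le_of_pow_le_pow_left₀ (n := 2 * k) (by omega) (by positivity) ?_
      rw [mul_pow, hz4]
      calc (p.divisors.card : ℝ) ^ (2 * k) ≤ (C : ℝ) * p := by exact_mod_cast hC p (by omega)
        _ ≤ (C : ℝ) ^ (2 * k) * N := by
          refine mul_le_mul ?_ (by exact_mod_cast hpN) (Nat.cast_nonneg _) (by positivity)
          exact le_self_pow₀ (by exact_mod_cast hC0) (by omega)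
    have h3 : (1 : ℝ) ≤ z ^ 4 := one_le_pow₀ (by linarith)
    nlinarith [mul_le_mul_of_nonneg_left h2 hk0.le,
      mul_le_mul_of_nonneg_left h3 (show (0 : ℝ) ≤ 2 * n0 by positivity)]
  set B := ⌊(k * C + 2 * n0 : ℝ) * z ^ 4⌋₊ with hB
  have hBp : ∀ p, 1 ≤ p → p ≤ N → (D.filter fun q => Val h N (p + q)).card ≤ B := fun p hp hpN =>
    Nat.le_floor (hpairs p hp hpN)
  set M := ⌊z⌋₊ with hM
  set d := ⌈6 * z ^ 8⌉₊ with hd
  have hMz : (M : ℝ) ≤ z := Nat.floor_le hz0.le
  have hM1 : 1 ≤ M := Nat.le_floor (by push_cast; linarith)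
  have hz8le : z ≤ z ^ 8 := le_self_pow₀ (by linarith) (by norm_num)
  have hd6 : 6 * z ^ 8 ≤ (d : ℝ) := Nat.le_ceil _
  have hd7 : (d : ℝ) ≤ 7 * z ^ 8 := by
    have := Nat.ceil_lt_add_one (show 0 ≤ 6 * z ^ 8 by positivity)
    linarith
  have hMd : M ≤ d := by exact_mod_cast (show (M : ℝ) ≤ d by linarith)
  have hdeg : ∀ v ∈ Icc 1 N, (nbrs (Adj h N) (Icc 1 N) v).card ≤ d := fun v _ => by
    refine (card_nbrs_le N v).trans ?_
    have : ((2 * D.card : ℕ) : ℝ) ≤ d := by push_cast; linarith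
    exact_mod_cast this
  have hfew : 4 * M ^ 2 * (tris h N).card ≤ d ^ 2 * (Icc 1 N).card := by
    rw [Nat.card_Icc, Nat.add_sub_cancel]
    have h1 : ((tris h N).card : ℝ) ≤ D.card * ((N : ℝ) * B) := by
      exact_mod_cast card_tris_le hBp
    have h2 : (B : ℝ) ≤ z * z ^ 4 := by
      refine (Nat.floor_le (by positivity)).trans (mul_le_mul_of_nonneg_right ?_ (by positivity))
      linarith
    have h3 : ((tris h N).card : ℝ) ≤ 3 * z ^ 8 * ((N : ℝ) * (z * z ^ 4)) :=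
      h1.trans (mul_le_mul hDcard (mul_le_mul_of_nonneg_left h2 hN0.le) (by positivity) (by positivity))
    have h4 : 4 * (M : ℝ) ^ 2 * (tris h N).card ≤ (d : ℝ) ^ 2 * N := by
      refine (mul_le_mul (mul_le_mul_of_nonneg_left (pow_le_pow_left₀ (Nat.cast_nonneg _) hMz 2)
        (by norm_num)) h3 (Nat.cast_nonneg _) (by positivity)).trans ?_
      refine le_trans ?_ (mul_le_mul_of_nonneg_right (pow_le_pow_left₀ (by positivity) hd6 2) hN0.le)
      have h5 : z ^ 15 ≤ z ^ 16 := pow_le_pow_right₀ (by linarith) (by norm_num)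
      have h6 : (0 : ℝ) ≤ z ^ 16 * N := by positivity
      nlinarith [mul_le_mul_of_nonneg_right h5 hN0.le]
    exact_mod_cast h4
  obtain ⟨S, hSU, hSdeg, hStri, hScard⟩ := exists_sparse (Icc 1 N) (Adj h N) (adj_irrefl N)
    (tris h N) tris_spec (fun x hx y hy w hw a1 a2 a3 => by
      obtain ⟨t, ht, hte⟩ := exists_tri hx hy hw a1 a2 a3
      exact ⟨t, ht, by ext u; simpa using Finset.ext_iff.1 hte u⟩) hdeg hM1 hMd hfew
  rw [Nat.card_Icc, Nat.add_sub_cancel] at hScard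
  set lam := Nat.log 2 M / 5 with hlamdef
  have hlam : lam * 2 ^ (4 * lam + 1) ≤ 4 * M := by
    calc lam * 2 ^ (4 * lam + 1) ≤ 2 ^ lam * 2 ^ (4 * lam + 1) :=
          Nat.mul_le_mul_right _ Nat.lt_two_pow_self.le
      _ = 2 * 2 ^ (5 * lam) := by rw [← pow_add, ← pow_succ']; ring_nf
      _ ≤ 2 * 2 ^ Nat.log 2 M := by
          refine Nat.mul_le_mul_left _ (Nat.pow_le_pow_right two_pos ?_)
          omega
      _ ≤ 4 * M := by
          have := Nat.pow_log_le_self 2 (show M ≠ 0 by omega)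
          omega
  obtain ⟨I, hIS, hIi, hIcard⟩ := exists_indep (Adj h N) (adj_symm N) (adj_irrefl N) S hSdeg
    hStri hlam
  refine ⟨I, hIS.trans hSU, fun a ha b hb n hn hab => ?_, ?_⟩
  · by_contra hne
    refine hIi a ha b hb ⟨?_, ?_, n, hn, ?_⟩
    · rcases le_total a b with hle | hle
      · rw [Nat.dist_eq_sub_of_le hle]; omega
      · rw [Nat.dist_eq_sub_of_le_right hle]; omega
    · have h1 := mem_Icc.1 (hSU (hIS ha))
      have h2 := mem_Icc.1 (hSU (hIS hb))
      rcases le_total a b with hle | hle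
      · rw [Nat.dist_eq_sub_of_le hle]; omega
      · rw [Nat.dist_eq_sub_of_le_right hle]; omega
    · rcases le_total a b with hle | hle
      · rw [Nat.dist_eq_sub_of_le hle]; omega
      · rw [Nat.dist_eq_sub_of_le_right hle]; omega
  · have h1 : lam * N ≤ 16 * d * I.card := by
      refine Nat.le_of_mul_le_mul_left (c := M) ?_ hM1
      calc M * (lam * N) = lam * (M * N) := by ring
        _ ≤ lam * (2 * d * S.card) := Nat.mul_le_mul_left _ hScard
        _ = 2 * d * (lam * S.card) := by ring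
        _ ≤ 2 * d * (2 * (4 * M) * I.card) := Nat.mul_le_mul_left _ hIcard
        _ = _ := by ring
    have h1' : (lam : ℝ) * N ≤ 16 * d * I.card := by exact_mod_cast h1
    have hlz : Real.log z = Real.log N / (8 * k) := by
      rw [hzdef, Real.log_rpow hN0]; ring
    have h2 : Real.log N / (56 * k) ≤ lam := by
      have hzM : z ≤ ((2 : ℕ) ^ (Nat.log 2 M + 1) : ℕ) := by
        refine (Nat.lt_floor_add_one z).le.trans ?_
        exact_mod_cast Nat.lt_pow_succ_log_self one_lt_two M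
      push_cast at hzM
      have h3 := Real.log_le_log hz0 hzM
      rw [Real.log_pow, hlz] at h3
      have h4 : ((Nat.log 2 M + 1 : ℕ) : ℝ) ≤ 5 * (lam : ℝ) + 5 := by
        have : Nat.log 2 M + 1 ≤ 5 * lam + 5 := by omega
        exact_mod_cast this
      have h5 : ((Nat.log 2 M + 1 : ℕ) : ℝ) * Real.log 2 ≤ (5 * (lam : ℝ) + 5) * (7 / 10) :=
        mul_le_mul h4 (by linarith [Real.log_two_lt_d9]) (Real.log_nonneg one_le_two) (by positivity)
      have h6 : Real.log N / (8 * k) = 7 * (Real.log N / (56 * k)) := by field_simp; ring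
      have h7 : 1 ≤ Real.log N / (56 * k) := by rw [le_div_iff₀ (by positivity)]; linarith
      linarith
    have hxk : (N : ℝ) ^ (1 - 1 / (k : ℝ)) = N / z ^ 8 := by
      rw [hz8, Real.rpow_sub hN0, Real.rpow_one]
    rw [hxk]
    calc 1 / (56 * k * 112) * ((N : ℝ) / z ^ 8) * Real.log N
        = (Real.log N / (56 * k)) * N / (112 * z ^ 8) := by field_simp
      _ ≤ (lam : ℝ) * N / (112 * z ^ 8) := by gcongr
      _ ≤ 16 * (7 * z ^ 8) * I.card / (112 * z ^ 8) := by
          refine div_le_div_of_nonneg_right (h1'.trans ?_) (by positivity)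
          gcongr
      _ = I.card := by field_simp; ring

end Vale.Agent.P042
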