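import Mathlib

/-!
Independent sets in locally sparse finite graphs, given by an adjacency relation on a finite
vertex set.
-/

namespace Vale.Agent.P042

open Finset
open scoped Classical

variable {α : Type*}

/-- The neighbours of `v` inside `S`. -/
noncomputable def nbrs (r : α → α → Prop) (S : Finset α) (v : α) : Finset α := S.filter (r v)

/-- No two elements of the set are adjacent. -/
def Indep (r : α → α → Prop) (S : Finset α) : Prop := ∀ x ∈ S, ∀ y ∈ S, ¬ r x y

lemma two_mul_sum_card_powerset (s : Finset α) :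
    2 * ∑ t ∈ s.powerset, t.card = s.card * 2 ^ s.card := by
  have h1 : ∑ t ∈ s.powerset, (s.card - t.card) = ∑ t ∈ s.powerset, t.card := by
    refine sum_nbij' (fun t => s \ t) (fun t => s \ t) ?_ ?_ ?_ ?_ ?_
    · intro t _; simp [sdiff_subset]
    · intro t _; simp [sdiff_subset]
    · intro t ht; exact Finset.sdiff_sdiff_eq_self (mem_powerset.1 ht)
    · intro t ht; exact Finset.sdiff_sdiff_eq_self (mem_powerset.1 ht)
    · intro t ht; rw [card_sdiff_of_subset (mem_powerset.1 ht)]
  calc 2 * ∑ t ∈ s.powerset, t.card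
      = ∑ t ∈ s.powerset, (t.card + (s.card - t.card)) := by
        rw [sum_add_distrib, h1, two_mul]
    _ = ∑ t ∈ s.powerset, s.card := sum_congr rfl fun t ht => by
        have := card_le_card (mem_powerset.1 ht); omega
    _ = _ := by rw [sum_const, card_powerset, smul_eq_mul, mul_comm]

variable (r : α → α → Prop)

/-- The average independent set is large: a triangle-free graph of maximum degree `D` has an
independent set of order `log D / D` times the number of vertices. -/
theorem exists_indep (hsymm : ∀ x y, r x y → r y x) (hirr : ∀ x, ¬ r x x) (V : Finset α)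
    {D lam : ℕ} (hdeg : ∀ v ∈ V, (nbrs r V v).card ≤ D)
    (htri : ∀ x ∈ V, ∀ y ∈ V, ∀ z ∈ V, r x y → r x z → ¬ r y z)
    (hlam : lam * 2 ^ (4 * lam + 1) ≤ D) :
    ∃ I ⊆ V, Indep r I ∧ lam * V.card ≤ 2 * D * I.card := by
  set P := V.powerset.filter (Indep r) with hP
  have hmemP : ∀ W, W ∈ P ↔ W ⊆ V ∧ Indep r W := fun W => by rw [hP, mem_filter, mem_powerset]
  let X : α → Finset α → ℕ := fun v W => D * (if v ∈ W then 1 else 0) + (nbrs r W v).card
  have upper : ∀ W ∈ P, ∑ v ∈ V, X v W ≤ 2 * D * W.card := by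
    intro W hW
    obtain ⟨hWV, -⟩ := (hmemP W).1 hW
    have e1 : ∑ v ∈ V, (nbrs r W v).card ≤ W.card * D := by
      calc ∑ v ∈ V, (nbrs r W v).card = ∑ w ∈ W, (nbrs r V w).card := by
            simp only [nbrs, card_filter]
            rw [sum_comm]
            exact sum_congr rfl fun w _ => sum_congr rfl fun v _ =>
              if_congr ⟨hsymm v w, hsymm w v⟩ rfl rfl
        _ ≤ _ := (sum_le_card_nsmul _ _ D fun w hw => hdeg w (hWV hw)).trans_eq (smul_eq_mul _ _)
    have e2 : ∑ v ∈ V, D * (if v ∈ W then 1 else 0) ≤ D * W.card := by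
      rw [← mul_sum, sum_boole, filter_mem_eq_inter, Nat.cast_id]
      exact Nat.mul_le_mul_left _ (card_le_card inter_subset_right)
    simp only [X, sum_add_distrib]
    nlinarith
  have lower : ∀ v ∈ V, lam * P.card ≤ ∑ W ∈ P, X v W := by
    intro v hv
    set U := insert v (nbrs r V v) with hU
    have hmaps : ∀ W ∈ P, W \ U ∈ P.image (fun W => W \ U) := fun W hW => mem_image_of_mem _ hW
    rw [← sum_fiberwise_of_maps_to hmaps, card_eq_sum_card_fiberwise hmaps, mul_sum]
    refine sum_le_sum fun W0 hW0 => ?_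
    obtain ⟨W1, hW1, rfl⟩ := mem_image.1 hW0
    obtain ⟨hW1V, hW1i⟩ := (hmemP W1).1 hW1
    set W0 := W1 \ U with hW0def
    have hW0V : W0 ⊆ V := sdiff_subset.trans hW1V
    have hW0i : Indep r W0 := fun x hx y hy => hW1i x (sdiff_subset hx) y (sdiff_subset hy)
    have hvW0 : v ∉ W0 := fun h => (mem_sdiff.1 h).2 (mem_insert_self _ _)
    have hno : ∀ x ∈ W0, ¬ r v x := fun x hx hvx => (mem_sdiff.1 hx).2
      (mem_insert_of_mem (mem_filter.2 ⟨hW0V hx, hvx⟩))
    set A := (nbrs r V v).filter (fun a => ∀ x ∈ W0, ¬ r a x) with hA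
    have hAmem : ∀ a, a ∈ A ↔ (a ∈ V ∧ r v a) ∧ ∀ x ∈ W0, ¬ r a x := fun a => by
      rw [hA, mem_filter, nbrs, mem_filter]
    set F := P.filter (fun W => W \ U = W0) with hF
    have hdA : Disjoint W0 A := disjoint_right.2 fun a ha hW => hno a hW ((hAmem a).1 ha).1.2
    have hvA : v ∉ A := fun h => hirr v ((hAmem v).1 h).1.2
    have hFeq : F = insert (insert v W0) (A.powerset.image fun B => W0 ∪ B) := by
      ext W
      simp only [hF, mem_filter, hmemP, mem_insert, mem_image, mem_powerset]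
      constructor
      · rintro ⟨⟨hWV, hWi⟩, hWU⟩
        by_cases hvW : v ∈ W
        · refine Or.inl ?_
          rw [← hWU]
          ext x
          simp only [mem_insert, mem_sdiff, hU, nbrs, mem_filter]
          constructor
          · intro hx
            by_cases hxv : x = v
            · exact Or.inl hxv
            · exact Or.inr ⟨hx, fun h => hWi v hvW x hx (h.resolve_left hxv).2⟩
          · rintro (rfl | ⟨hx, _⟩)
            exacts [hvW, hx]
        · refine Or.inr ⟨W \ W0, fun a ha => (hAmem a).2 ?_, ?_⟩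
          · obtain ⟨haW, ha0⟩ := mem_sdiff.1 ha
            have haU : a ∈ U := by
              by_contra h
              exact ha0 (hWU ▸ mem_sdiff.2 ⟨haW, h⟩)
            have hva : r v a := by
              rcases mem_insert.1 haU with rfl | h
              · exact absurd haW hvW
              · exact (mem_filter.1 h).2
            exact ⟨⟨hWV haW, hva⟩, fun x hx => hWi a haW x (mem_sdiff.1 (hWU.symm ▸ hx)).1⟩
          · exact union_sdiff_of_subset (hWU ▸ sdiff_subset)
      · rintro (rfl | ⟨B, hB, rfl⟩)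
        · refine ⟨⟨insert_subset hv hW0V, ?_⟩, ?_⟩
          · intro x hx y hy
            rcases mem_insert.1 hx with rfl | hx <;> rcases mem_insert.1 hy with rfl | hy
            · exact hirr _
            · exact hno y hy
            · exact fun h => hno x hx (hsymm _ _ h)
            · exact hW0i x hx y hy
          · rw [insert_sdiff_of_mem _ (mem_insert_self v _), hW0def, Finset.sdiff_idem]
        · refine ⟨⟨union_subset hW0V fun a ha => ((hAmem a).1 (hB ha)).1.1, ?_⟩, ?_⟩
          · intro x hx y hy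
            rcases mem_union.1 hx with hx | hx <;> rcases mem_union.1 hy with hy | hy
            · exact hW0i x hx y hy
            · exact fun h => ((hAmem y).1 (hB hy)).2 x hx (hsymm _ _ h)
            · exact ((hAmem x).1 (hB hx)).2 y hy
            · obtain ⟨⟨hxV, hvx⟩, -⟩ := (hAmem x).1 (hB hx)
              obtain ⟨⟨hyV, hvy⟩, -⟩ := (hAmem y).1 (hB hy)
              exact htri v hv x hxV y hyV hvx hvy
          · rw [union_sdiff_distrib, hW0def, Finset.sdiff_idem, union_eq_left.2]
            intro a ha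
            obtain ⟨haB, haU⟩ := mem_sdiff.1 ha
            exact absurd (mem_insert_of_mem (filter_subset _ _ (hB haB))) haU
    have hnot : insert v W0 ∉ A.powerset.image fun B => W0 ∪ B := by
      rw [mem_image]
      rintro ⟨B, hB, hBe⟩
      have : v ∈ W0 ∪ B := hBe ▸ mem_insert_self v W0
      exact (mem_union.1 this).elim hvW0 fun h => hvA (mem_powerset.1 hB h)
    have hinj : Set.InjOn (fun B => W0 ∪ B) (A.powerset : Set (Finset α)) := by
      intro B hB B' hB' h
      rw [mem_coe, mem_powerset] at hB hB'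
      have := congrArg (fun S => S \ W0) h
      simp only [union_sdiff_left] at this
      rwa [sdiff_eq_self_of_disjoint (hdA.mono_right hB).symm,
        sdiff_eq_self_of_disjoint (hdA.mono_right hB').symm] at this
    rw [hFeq, sum_insert hnot, sum_image hinj, card_insert_of_notMem hnot,
      card_image_of_injOn hinj, card_powerset]
    have hins : D ≤ X v (insert v W0) := by simp [X]
    have hB' : ∀ B ∈ A.powerset, B.card ≤ X v (W0 ∪ B) := fun B hB => by
      refine le_trans (card_le_card fun a ha => ?_) (Nat.le_add_left _ _)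
      exact mem_filter.2 ⟨mem_union_right _ ha, ((hAmem a).1 (mem_powerset.1 hB ha)).1.2⟩
    refine le_trans ?_ (Nat.add_le_add hins (sum_le_sum hB'))
    have h2 := two_mul_sum_card_powerset A
    rcases le_or_gt (4 * lam) A.card with h | h
    · have := Nat.mul_le_mul_right (2 ^ A.card) h
      have h1 : 1 ≤ 2 ^ A.card := Nat.one_le_two_pow
      nlinarith
    · have h3 : 2 ^ A.card + 1 ≤ 2 ^ (4 * lam + 1) := by
        have : 2 ^ A.card ≤ 2 ^ (4 * lam) := Nat.pow_le_pow_right two_pos h.le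
        have : 1 ≤ 2 ^ (4 * lam) := Nat.one_le_two_pow
        rw [pow_succ]; omega
      have := Nat.mul_le_mul_left lam h3
      omega
  have hne : P.Nonempty := ⟨∅, (hmemP ∅).2 ⟨empty_subset V, fun x hx => absurd hx (notMem_empty x)⟩⟩
  obtain ⟨I, hI, hmax⟩ := exists_max_image P card hne
  refine ⟨I, ((hmemP I).1 hI).1, ((hmemP I).1 hI).2,
    Nat.le_of_mul_le_mul_left ?_ (card_pos.2 hne)⟩
  calc P.card * (lam * V.card) = ∑ _v ∈ V, lam * P.card := by rw [sum_const, smul_eq_mul]; ring
    _ ≤ ∑ v ∈ V, ∑ W ∈ P, X v W := sum_le_sum lower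
    _ = ∑ W ∈ P, ∑ v ∈ V, X v W := sum_comm
    _ ≤ ∑ W ∈ P, 2 * D * W.card := sum_le_sum upper
    _ ≤ ∑ _W ∈ P, 2 * D * I.card := sum_le_sum fun W hW => Nat.mul_le_mul_left _ (hmax W hW)
    _ = _ := by rw [sum_const, smul_eq_mul]

/-- The probability that a random subset contains a given one. -/
lemma sum_weight (U T : Finset α) (hT : T ⊆ U) (p : ℝ) :
    ∑ S ∈ U.powerset, p ^ S.card * (1 - p) ^ (U \ S).card * (if T ⊆ S then 1 else 0) =
      p ^ T.card := by
  have h := prod_add (fun _ : α => p) (fun i => if i ∈ T then 0 else 1 - p) U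
  have hl : ∏ i ∈ U, (p + if i ∈ T then 0 else 1 - p) = p ^ T.card := by
    rw [prod_congr rfl fun i _ => (by split_ifs <;> ring :
      (p + if i ∈ T then (0 : ℝ) else 1 - p) = if i ∈ T then p else 1), prod_ite_mem,
      inter_eq_right.2 hT, prod_const]
  rw [← hl, h]
  refine sum_congr rfl fun S _ => ?_
  rw [prod_const]
  by_cases hTS : T ⊆ S
  · rw [if_pos hTS, mul_one,
      prod_congr rfl fun i hi => if_neg fun h => (mem_sdiff.1 hi).2 (hTS h), prod_const]
  · obtain ⟨i, hiT, hiS⟩ := not_subset.1 hTS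
    rw [if_neg hTS, mul_zero, prod_eq_zero (f := fun j => if j ∈ T then (0 : ℝ) else 1 - p)
      (mem_sdiff.2 ⟨hT hiT, hiS⟩) (if_pos hiT), mul_zero]

/-- A random subset loses the triangles and the large degrees. -/
theorem exists_sparse (U : Finset α) (r : α → α → Prop) (hirr : ∀ x, ¬ r x x)
    (Tr : Finset (α × α × α))
    (hTr : ∀ t ∈ Tr, t.1 ∈ U ∧ t.2.1 ∈ U ∧ t.2.2 ∈ U ∧ t.1 ≠ t.2.1 ∧ t.1 ≠ t.2.2 ∧ t.2.1 ≠ t.2.2)
    (hall : ∀ x ∈ U, ∀ y ∈ U, ∀ z ∈ U, r x y → r x z → r y z →
      ∃ t ∈ Tr, ({t.1, t.2.1, t.2.2} : Finset α) = {x, y, z})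
    {d M : ℕ} (hd : ∀ v ∈ U, (nbrs r U v).card ≤ d) (hM : 0 < M) (hMd : M ≤ d)
    (hfew : 4 * M ^ 2 * Tr.card ≤ d ^ 2 * U.card) :
    ∃ S ⊆ U, (∀ v ∈ S, (nbrs r S v).card ≤ 4 * M) ∧
      (∀ x ∈ S, ∀ y ∈ S, ∀ z ∈ S, r x y → r x z → ¬ r y z) ∧
      M * U.card ≤ 2 * d * S.card := by
  have hd0 : (0 : ℝ) < d := by exact_mod_cast lt_of_lt_of_le hM hMd
  have hM0 : (0 : ℝ) < M := by exact_mod_cast hM
  obtain ⟨p, hp⟩ : ∃ p : ℝ, p = M / d := ⟨_, rfl⟩
  have hp0 : 0 < p := by rw [hp]; positivity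
  have hp1 : p ≤ 1 := by rw [hp, div_le_one hd0]; exact_mod_cast hMd
  let score : Finset α → ℝ := fun S => (∑ v ∈ U, if ({v} : Finset α) ⊆ S then (1 : ℝ) else 0) -
    (∑ t ∈ Tr, if ({t.1, t.2.1, t.2.2} : Finset α) ⊆ S then (1 : ℝ) else 0) -
    (∑ v ∈ U, ∑ u ∈ nbrs r U v, if ({v, u} : Finset α) ⊆ S then (1 : ℝ) else 0) / (4 * M)
  have hw : ∑ S ∈ U.powerset, p ^ S.card * (1 - p) ^ (U \ S).card = 1 := by
    simpa using sum_weight U ∅ (empty_subset U) p
  have havg : p * U.card / 2 ≤
      ∑ S ∈ U.powerset, p ^ S.card * (1 - p) ^ (U \ S).card * score S := by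
    simp only [score, mul_sub, ← mul_div_assoc, mul_sum, sum_sub_distrib, ← sum_div]
    rw [sum_comm, sum_congr rfl fun v hv => sum_weight U {v} (singleton_subset_iff.2 hv) p]
    conv_rhs => enter [1, 2]; rw [sum_comm]
    rw [sum_congr rfl fun t ht => sum_weight U _ (by
      obtain ⟨h1, h2, h3, -⟩ := hTr t ht
      simp [insert_subset_iff, h1, h2, h3]) p]
    conv_rhs => enter [2, 1]; rw [sum_comm]; enter [2, v]; rw [sum_comm]
    rw [sum_congr rfl fun v hv => sum_congr rfl fun u hu => sum_weight U _ (by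
      simp [insert_subset_iff, hv, (mem_filter.1 hu).1]) p]
    have e1 : ∑ v ∈ U, p ^ ({v} : Finset α).card = p * U.card := by simp [mul_comm]
    have e2 : ∑ t ∈ Tr, p ^ ({t.1, t.2.1, t.2.2} : Finset α).card = p ^ 3 * Tr.card := by
      rw [sum_congr rfl fun t ht => ?_, sum_const, nsmul_eq_mul, mul_comm]
      obtain ⟨-, -, -, h1, h2, h3⟩ := hTr t ht
      rw [card_insert_of_notMem (by simp [h1, h2]), card_pair h3]
    have e3 : ∑ v ∈ U, ∑ u ∈ nbrs r U v, p ^ ({v, u} : Finset α).card ≤ p ^ 2 * (d * U.card) := by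
      calc ∑ v ∈ U, ∑ u ∈ nbrs r U v, p ^ ({v, u} : Finset α).card
          ≤ ∑ _v ∈ U, p ^ 2 * d := sum_le_sum fun v hv => by
            rw [sum_congr rfl fun u hu => by
              rw [card_pair fun h => hirr v (by simpa [← h] using (mem_filter.1 hu).2)],
              sum_const, nsmul_eq_mul, mul_comm]
            exact mul_le_mul_of_nonneg_left (by exact_mod_cast hd v hv) (by positivity)
        _ = _ := by rw [sum_const, nsmul_eq_mul]; ring
    have h3 : p ^ 3 * Tr.card ≤ p * U.card / 4 := by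
      have : 4 * (M : ℝ) ^ 2 * Tr.card ≤ (d : ℝ) ^ 2 * U.card := by exact_mod_cast hfew
      have h4 : p ^ 2 * Tr.card ≤ (U.card : ℝ) / 4 := by
        rw [hp, div_pow, div_mul_eq_mul_div, div_le_iff₀ (by positivity)]
        linarith
      nlinarith [mul_le_mul_of_nonneg_left h4 hp0.le]
    have h5 : (∑ v ∈ U, ∑ u ∈ nbrs r U v, p ^ ({v, u} : Finset α).card) / (4 * M) ≤
        p * U.card / 4 := by
      refine (div_le_div_of_nonneg_right e3 (by positivity)).trans (le_of_eq ?_)
      rw [hp]; field_simp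
    rw [e1, e2]
    linarith
  obtain ⟨S, hS, hScore⟩ : ∃ S ∈ U.powerset, p * U.card / 2 ≤ score S := by
    by_contra hc
    push Not at hc
    have hle : ∀ S ∈ U.powerset, p ^ S.card * (1 - p) ^ (U \ S).card * score S ≤
        p ^ S.card * (1 - p) ^ (U \ S).card * (p * U.card / 2) := fun S hS =>
      mul_le_mul_of_nonneg_left (hc S hS).le
        (mul_nonneg (pow_nonneg hp0.le _) (pow_nonneg (by linarith) _))
    obtain ⟨S0, hS0, hpos⟩ : ∃ S ∈ U.powerset, 0 < p ^ S.card * (1 - p) ^ (U \ S).card := by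
      refine ⟨U, mem_powerset.2 subset_rfl, ?_⟩
      simp only [Finset.sdiff_self, card_empty, pow_zero, mul_one]
      positivity
    have := sum_lt_sum hle ⟨S0, hS0, mul_lt_mul_of_pos_left (hc S0 hS0) hpos⟩
    rw [← sum_mul, hw, one_mul] at this
    linarith
  rw [mem_powerset] at hS
  set B1 := (Tr.filter fun t => ({t.1, t.2.1, t.2.2} : Finset α) ⊆ S).image Prod.fst with hB1
  set B2 := S.filter fun v => 4 * M < (nbrs r S v).card with hB2
  refine ⟨S \ (B1 ∪ B2), sdiff_subset.trans hS, fun v hv => ?_, ?_, ?_⟩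
  · obtain ⟨hvS, hvB⟩ := mem_sdiff.1 hv
    have : ¬ 4 * M < (nbrs r S v).card := fun h => hvB (mem_union_right _ (mem_filter.2 ⟨hvS, h⟩))
    exact (card_le_card (filter_subset_filter _ sdiff_subset)).trans (not_lt.1 this)
  · intro x hx y hy z hz hxy hxz hyz
    obtain ⟨hxS, -⟩ := mem_sdiff.1 hx
    obtain ⟨hyS, -⟩ := mem_sdiff.1 hy
    obtain ⟨hzS, -⟩ := mem_sdiff.1 hz
    obtain ⟨t, ht, hte⟩ := hall x (hS hxS) y (hS hyS) z (hS hzS) hxy hxz hyz
    have hsub : ({t.1, t.2.1, t.2.2} : Finset α) ⊆ S := by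
      rw [hte]; simp [insert_subset_iff, hxS, hyS, hzS]
    have hb : t.1 ∈ B1 := mem_image_of_mem Prod.fst (mem_filter.2 ⟨ht, hsub⟩)
    have : t.1 ∈ ({x, y, z} : Finset α) := hte ▸ mem_insert_self _ _
    simp only [mem_insert, mem_singleton] at this
    rcases this with h | h | h
    · exact (mem_sdiff.1 hx).2 (mem_union_left _ (h ▸ hb))
    · exact (mem_sdiff.1 hy).2 (mem_union_left _ (h ▸ hb))
    · exact (mem_sdiff.1 hz).2 (mem_union_left _ (h ▸ hb))
  · have c1 : (∑ v ∈ U, if ({v} : Finset α) ⊆ S then (1 : ℝ) else 0) = S.card := by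
      simp only [singleton_subset_iff, sum_boole, filter_mem_eq_inter, inter_eq_right.2 hS]
    have c2 : (B1.card : ℝ) ≤ ∑ t ∈ Tr, if ({t.1, t.2.1, t.2.2} : Finset α) ⊆ S then (1 : ℝ) else 0 := by
      rw [sum_boole]; exact_mod_cast card_image_le
    have c3 : (B2.card : ℝ) ≤
        (∑ v ∈ U, ∑ u ∈ nbrs r U v, if ({v, u} : Finset α) ⊆ S then (1 : ℝ) else 0) / (4 * M) := by
      rw [le_div_iff₀ (by positivity)]
      refine le_trans ?_ (sum_le_sum_of_subset_of_nonneg (filter_subset _ _ |>.trans hS :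
        B2 ⊆ U) fun v _ _ => sum_nonneg fun u _ => by split_ifs <;> norm_num)
      rw [← nsmul_eq_mul]
      refine card_nsmul_le_sum _ _ _ fun v hv => ?_
      obtain ⟨hvS, hvM⟩ := mem_filter.1 hv
      rw [sum_boole]
      calc (4 * M : ℝ) ≤ (nbrs r S v).card := by exact_mod_cast hvM.le
        _ ≤ _ := by
          refine Nat.cast_le.2 (card_le_card fun u hu => ?_)
          obtain ⟨huS, hvu⟩ := mem_filter.1 hu
          exact mem_filter.2 ⟨mem_filter.2 ⟨hS huS, hvu⟩, by simp [insert_subset_iff, hvS, huS]⟩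
    have c4 : (S.card : ℝ) ≤ (S \ (B1 ∪ B2)).card + ((B1.card : ℝ) + B2.card) := by
      exact_mod_cast (card_le_card_sdiff_add_card (s := S) (t := B1 ∪ B2)).trans
        (Nat.add_le_add_left (card_union_le _ _) _)
    have key : p * U.card / 2 ≤ ((S \ (B1 ∪ B2)).card : ℝ) := by
      simp only [score] at hScore
      linarith
    have : (M : ℝ) * U.card ≤ 2 * d * (S \ (B1 ∪ B2)).card := by
      rw [hp, div_mul_eq_mul_div, div_div, div_le_iff₀ (by positivity)] at key
      linarith
    exact_mod_cast this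

end Vale.Agent.P042
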